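import Mathlib

/-!
Fourier analysis on the circle used in the fibre decomposition (row 113, S0149, task T15).
-/

set_option autoImplicit false
open MeasureTheory Complex Filter AddCircle
open scoped ENNReal ComplexConjugate InnerProductSpace Topology

namespace Crest.Agent.R113.Fib

/-- Haar probability measure on the circle. -/
noncomputable abbrev mu : Measure UnitAddCircle := haarAddCircle

/-- L¹ uniqueness for Fourier coefficients on the circle. -/
theorem ae_zero_of_fourierCoeff (g : UnitAddCircle → ℂ) (hg : Integrable g mu)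
    (h : ∀ n : ℤ, fourierCoeff g n = 0) : g =ᵐ[mu] 0 := by
  -- the functional
  have hint : ∀ c : C(UnitAddCircle, ℂ), Integrable (fun x => c x * g x) mu := by
    intro c
    refine hg.bdd_mul (c := ‖c‖) (c.continuous.aestronglyMeasurable) ?_
    exact Eventually.of_forall fun x => c.norm_coe_le_norm x
  let L : C(UnitAddCircle, ℂ) →ₗ[ℂ] ℂ :=
    { toFun := fun c => ∫ x, c x * g x ∂mu
      map_add' := by
        intro c d
        simp only [ContinuousMap.add_apply, add_mul]
        exact integral_add (hint c) (hint d)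
      map_smul' := by
        intro r c
        simp only [ContinuousMap.smul_apply, smul_eq_mul, RingHom.id_apply, mul_assoc]
        exact integral_const_mul _ _ }
  let Lc : C(UnitAddCircle, ℂ) →L[ℂ] ℂ := L.mkContinuous (∫ x, ‖g x‖ ∂mu) (by
    intro c
    calc ‖∫ x, c x * g x ∂mu‖ ≤ ∫ x, ‖c x * g x‖ ∂mu := norm_integral_le_integral_norm _
      _ ≤ ∫ x, ‖g x‖ * ‖c‖ ∂mu := by
          refine integral_mono (hint c).norm (hg.norm.mul_const _) ?_
          intro x
          simp only [norm_mul]
          rw [mul_comm]
          exact mul_le_mul_of_nonneg_left (c.norm_coe_le_norm x) (norm_nonneg _)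
      _ = (∫ x, ‖g x‖ ∂mu) * ‖c‖ := integral_mul_const _ _)
  have hLc : ∀ c : C(UnitAddCircle, ℂ), Lc c = ∫ x, c x * g x ∂mu := fun c => rfl
  have hker : ∀ c : C(UnitAddCircle, ℂ), Lc c = 0 := by
    have h1 : Submodule.span ℂ (Set.range (@fourier (1 : ℝ))) ≤ LinearMap.ker (Lc : C(UnitAddCircle, ℂ) →ₗ[ℂ] ℂ) := by
      rw [Submodule.span_le]
      rintro _ ⟨n, rfl⟩
      have := h (-n)
      simp only [fourierCoeff, neg_neg, smul_eq_mul] at this
      exact this
    have h2 := Submodule.topologicalClosure_minimal _ h1 (ContinuousLinearMap.isClosed_ker Lc)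
    rw [span_fourier_closure_eq_top] at h2
    intro c
    exact h2 (Submodule.mem_top (x := c))
  refine ae_eq_zero_of_forall_setIntegral_isClosed_eq_zero hg ?_
  intro s hs
  have δpos : ∀ n : ℕ, 0 < (1 : ℝ) / ((n : ℝ) + 1) := fun n => by positivity
  have hlim := thickenedIndicator_tendsto_indicator_closure δpos tendsto_one_div_add_atTop_nhds_zero_nat s
  rw [hs.closure_eq] at hlim
  have hpt : ∀ x, Tendsto (fun n : ℕ => (((thickenedIndicator (δpos n) s x : NNReal) : ℝ) : ℂ) * g x) atTop
      (𝓝 (s.indicator g x)) := by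
    intro x
    have h1 := (tendsto_pi_nhds.1 hlim) x
    have h2 : Tendsto (fun n : ℕ => (((thickenedIndicator (δpos n) s x : NNReal) : ℝ) : ℂ)) atTop
        (𝓝 ((((s.indicator (fun _ => (1 : NNReal)) x : NNReal) : ℝ) : ℂ))) :=
      (Complex.continuous_ofReal.tendsto _).comp ((NNReal.continuous_coe.tendsto _).comp h1)
    have h3 := h2.mul_const (g x)
    convert h3 using 2
    by_cases hx : x ∈ s <;> simp [hx]
  have hdc : Tendsto (fun n : ℕ => ∫ x, (((thickenedIndicator (δpos n) s x : NNReal) : ℝ) : ℂ) * g x ∂mu) atTop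
      (𝓝 (∫ x, s.indicator g x ∂mu)) := by
    refine tendsto_integral_of_dominated_convergence (fun x => ‖g x‖) ?_ hg.norm ?_ ?_
    · intro n
      refine AEStronglyMeasurable.mul ?_ hg.1
      exact (Complex.continuous_ofReal.comp (NNReal.continuous_coe.comp
        (thickenedIndicator (δpos n) s).continuous)).aestronglyMeasurable
    · intro n
      refine Eventually.of_forall fun x => ?_
      rw [norm_mul]
      have : ‖(((thickenedIndicator (δpos n) s x : NNReal) : ℝ) : ℂ)‖ ≤ 1 := by
        rw [Complex.norm_real, Real.norm_of_nonneg (NNReal.coe_nonneg _)]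
        exact_mod_cast thickenedIndicator_le_one (δpos n) s x
      calc _ ≤ 1 * ‖g x‖ := mul_le_mul_of_nonneg_right this (norm_nonneg _)
        _ = ‖g x‖ := one_mul _
    · exact Eventually.of_forall hpt
  have hzero : ∀ n : ℕ, ∫ x, (((thickenedIndicator (δpos n) s x : NNReal) : ℝ) : ℂ) * g x ∂mu = 0 := by
    intro n
    have := hker ⟨fun x => (((thickenedIndicator (δpos n) s x : NNReal) : ℝ) : ℂ),
      Complex.continuous_ofReal.comp (NNReal.continuous_coe.comp
        (thickenedIndicator (δpos n) s).continuous)⟩
    rw [hLc] at this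
    exact this
  simp only [hzero] at hdc
  have := tendsto_nhds_unique hdc tendsto_const_nhds
  rw [integral_indicator hs.measurableSet] at this
  exact this

theorem ae_eq_of_fourierCoeff (g h : UnitAddCircle → ℂ) (hg : Integrable g mu) (hh : Integrable h mu)
    (H : ∀ n : ℤ, fourierCoeff g n = fourierCoeff h n) : g =ᵐ[mu] h := by
  have h1 := ae_zero_of_fourierCoeff (g - h) (hg.sub hh) (by
    intro n
    have hi1 := hg.fourier_smul (n := -n)
    have hi2 := hh.fourier_smul (n := -n)
    have : fourierCoeff (g - h) n = fourierCoeff g n - fourierCoeff h n := by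
      simp only [fourierCoeff, Pi.sub_apply, smul_sub]
      exact integral_sub hi1 hi2
    rw [this, H, sub_self])
  filter_upwards [h1] with x hx
  simpa [sub_eq_zero] using hx

end Crest.Agent.R113.Fib
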