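import Mathlib
import Crest.Agent.R113.Fib.Fourier

/-!
The fibre decomposition of `ℓ²(ℤ × ℤ)` over the circle (row 113, S0149, task T15).
-/

set_option autoImplicit false
open MeasureTheory Complex Filter AddCircle
open scoped ENNReal ComplexConjugate InnerProductSpace Topology

namespace Crest.Agent.R113.Fib

noncomputable abbrev L2Z := lp (fun _ : ℤ => ℂ) 2
noncomputable abbrev L2ZZ := lp (fun _ : ℤ × ℤ => ℂ) 2

theorem summable_sq {ι : Type*} (v : lp (fun _ : ι => ℂ) 2) : Summable fun i => ‖v i‖ ^ 2 := by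
  have := (lp.memℓp v).summable (by norm_num : 0 < (2 : ℝ≥0∞).toReal)
  simpa using this

theorem memlp_of_summable_sq {ι : Type*} (v : ι → ℂ) (h : Summable fun i => ‖v i‖ ^ 2) :
    Memℓp (E := fun _ : ι => ℂ) v 2 := by
  refine memℓp_gen ?_
  simpa using h

theorem norm_sq_eq_tsum {ι : Type*} (v : lp (fun _ : ι => ℂ) 2) : ‖v‖ ^ 2 = ∑' i, ‖v i‖ ^ 2 := by
  have := lp.norm_rpow_eq_tsum (by norm_num : 0 < (2 : ℝ≥0∞).toReal) v
  simpa using this

/-- The `m`-th row of an element of `ℓ²(ℤ × ℤ)`. -/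
noncomputable def row (η : L2ZZ) (m : ℤ) : L2Z :=
  ⟨fun n => η (m, n), memlp_of_summable_sq _
    ((summable_sq η).comp_injective (fun a b h => by simpa using h : Function.Injective (fun n : ℤ => (m, n))))⟩

@[simp] theorem row_apply (η : L2ZZ) (m n : ℤ) : row η m n = η (m, n) := rfl

theorem summable_row_sq (η : L2ZZ) : Summable fun m => ‖row η m‖ ^ 2 := by
  have h := (summable_sq η)
  have h2 := h.prod
  refine h2.congr ?_
  intro m
  rw [norm_sq_eq_tsum]
  rfl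

theorem tsum_row_sq (η : L2ZZ) : ∑' m, ‖row η m‖ ^ 2 = ‖η‖ ^ 2 := by
  have h := (summable_sq η)
  rw [norm_sq_eq_tsum η, h.tsum_prod]
  refine tsum_congr fun m => ?_
  rw [norm_sq_eq_tsum]
  rfl

theorem tsum_row_inner (η ζ : L2ZZ) : ∑' m, ⟪row η m, row ζ m⟫_ℂ = ⟪η, ζ⟫_ℂ := by
  have h : Summable (fun i : ℤ × ℤ => ⟪η i, ζ i⟫_ℂ) := lp.summable_inner η ζ
  rw [lp.inner_eq_tsum η ζ, h.tsum_prod]
  refine tsum_congr fun m => ?_
  rw [lp.inner_eq_tsum]
  simp only [row_apply]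

/-- The `m`-th coordinate function of `η` on the circle, as an element of `L²`. -/
noncomputable def Phi (η : L2ZZ) (m : ℤ) : Lp ℂ 2 mu := fourierBasis.repr.symm (row η m)

theorem fourierCoeff_Phi (η : L2ZZ) (m n : ℤ) : fourierCoeff (Phi η m) n = η (m, n) := by
  rw [← fourierBasis_repr, Phi, LinearIsometryEquiv.apply_symm_apply, row_apply]

theorem norm_Phi (η : L2ZZ) (m : ℤ) : ‖Phi η m‖ = ‖row η m‖ := by
  rw [Phi, LinearIsometryEquiv.norm_map]

theorem row_add (η ζ : L2ZZ) (m : ℤ) : row (η + ζ) m = row η m + row ζ m := rfl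
theorem row_sub (η ζ : L2ZZ) (m : ℤ) : row (η - ζ) m = row η m - row ζ m := rfl
theorem row_smul (c : ℂ) (η : L2ZZ) (m : ℤ) : row (c • η) m = c • row η m := rfl

theorem Phi_sub (η ζ : L2ZZ) (m : ℤ) : Phi (η - ζ) m = Phi η m - Phi ζ m := by
  rw [Phi, row_sub, map_sub]; rfl

theorem memLp_Phi (η : L2ZZ) (m : ℤ) : MemLp (Phi η m : UnitAddCircle → ℂ) 2 mu := Lp.memLp _

theorem integrable_Phi (η : L2ZZ) (m : ℤ) : Integrable (Phi η m : UnitAddCircle → ℂ) mu :=
  (memLp_Phi η m).integrable (by norm_num)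

/-- uniqueness: an integrable function with Fourier coefficients `η(m, ·)` is `Phi η m`. -/
theorem ae_eq_Phi (η : L2ZZ) (m : ℤ) (g : UnitAddCircle → ℂ) (hg : Integrable g mu)
    (H : ∀ n : ℤ, fourierCoeff g n = η (m, n)) : g =ᵐ[mu] Phi η m :=
  ae_eq_of_fourierCoeff _ _ hg (integrable_Phi η m) (fun n => by rw [H, fourierCoeff_Phi])

theorem fourierCoeff_fourier_mul (g : UnitAddCircle → ℂ) (b n : ℤ) :
    fourierCoeff (fun x => fourier b x * g x) n = fourierCoeff g (n - b) := by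
  simp only [fourierCoeff, smul_eq_mul]
  refine integral_congr_ae (Eventually.of_forall fun x => ?_)
  simp only
  rw [← mul_assoc, ← fourier_add]
  congr 3
  ring

theorem integrable_fourier_mul (g : UnitAddCircle → ℂ) (hg : Integrable g mu) (b : ℤ) :
    Integrable (fun x => fourier b x * g x) mu := by
  simpa [smul_eq_mul] using hg.fourier_smul (n := b)

/-- Shift of the second coordinate is multiplication by a character. -/
theorem Phi_shift (η η' : L2ZZ) (b : ℤ) (h : ∀ m n, η' (m, n) = η (m, n - b)) (m : ℤ) :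
    (fun x => fourier b x * Phi η m x) =ᵐ[mu] Phi η' m := by
  refine ae_eq_Phi η' m _ (integrable_fourier_mul _ (integrable_Phi η m) b) ?_
  intro n
  rw [fourierCoeff_fourier_mul, fourierCoeff_Phi, h]

theorem integrable_conj_mul_Phi (η ζ : L2ZZ) (m : ℤ) :
    Integrable (fun x => conj (Phi η m x) * Phi ζ m x) mu := by
  have := L2.integrable_inner (𝕜 := ℂ) (Phi η m) (Phi ζ m)
  refine this.congr (Eventually.of_forall fun x => ?_)
  simp only [RCLike.inner_apply]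
  ring

theorem integral_conj_mul_Phi (η ζ : L2ZZ) (m : ℤ) :
    ∫ x, conj (Phi η m x) * Phi ζ m x ∂mu = ⟪row η m, row ζ m⟫_ℂ := by
  have : ⟪Phi η m, Phi ζ m⟫_ℂ = ⟪row η m, row ζ m⟫_ℂ := by
    rw [Phi, Phi, LinearIsometryEquiv.inner_map_map]
  rw [← this, L2.inner_def]
  refine integral_congr_ae (Eventually.of_forall fun x => ?_)
  simp only [RCLike.inner_apply]
  ring

theorem integral_norm_sq_Phi (η : L2ZZ) (m : ℤ) :
    ∫ x, ‖Phi η m x‖ ^ 2 ∂mu = ‖row η m‖ ^ 2 := by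
  have h := integral_conj_mul_Phi η η m
  have h2 : ∀ x, conj (Phi η m x) * Phi η m x = ((‖Phi η m x‖ ^ 2 : ℝ) : ℂ) := by
    intro x
    rw [Complex.conj_mul']
    push_cast
    rfl
  simp only [h2] at h
  rw [inner_self_eq_norm_sq_to_K] at h
  have h3 : ∫ x, ((‖Phi η m x‖ ^ 2 : ℝ) : ℂ) ∂mu = ((∫ x, ‖Phi η m x‖ ^ 2 ∂mu : ℝ) : ℂ) :=
    integral_ofReal
  rw [h3] at h
  apply Complex.ofReal_injective
  rw [h]
  push_cast
  rfl

theorem integrable_norm_sq_Phi (η : L2ZZ) (m : ℤ) :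
    Integrable (fun x => ‖Phi η m x‖ ^ 2) mu := by
  have h := (integrable_conj_mul_Phi η η m).norm
  refine h.congr (Eventually.of_forall fun x => ?_)
  simp only [norm_mul, RCLike.norm_conj]
  ring

theorem integrable_tsum_of {E : Type*} [NormedAddCommGroup E] [NormedSpace ℝ E] [CompleteSpace E]
    [MeasurableSpace E] [BorelSpace E] [SecondCountableTopology E]
    {f : ℤ → UnitAddCircle → E} (hf : ∀ m, Integrable (f m) mu)
    (hs : Summable fun m => ∫ x, ‖f m x‖ ∂mu) :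
    (∀ᵐ x ∂mu, Summable fun m => ‖f m x‖) ∧ Integrable (fun x => ∑' m, f m x) mu ∧
    ∫ x, ∑' m, f m x ∂mu = ∑' m, ∫ x, f m x ∂mu := by
  have h3 : ∑' m, ∫⁻ x, ‖f m x‖ₑ ∂mu ≠ ⊤ := by
    have h4 : ∀ m, ∫⁻ x, ‖f m x‖ₑ ∂mu = ENNReal.ofReal (∫ x, ‖f m x‖ ∂mu) := by
      intro m
      rw [ofReal_integral_norm_eq_lintegral_enorm (hf m)]
    simp_rw [h4]
    exact hs.tsum_ofReal_ne_top
  have h3' := h3
  rw [← lintegral_tsum (fun m => (hf m).1.enorm)] at h3
  have h5 := ae_lt_top' (AEMeasurable.tsum (fun m => (hf m).1.enorm)) h3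
  have h6 : ∀ᵐ x ∂mu, Summable fun m => ‖f m x‖ := by
    filter_upwards [h5] with x hx
    exact tsum_enorm_ne_top_iff_summable_norm.1 hx.ne
  refine ⟨h6, ⟨?_, ?_⟩, integral_tsum (fun m => (hf m).1) h3'⟩
  · exact (AEMeasurable.tsum (fun m => (hf m).1.aemeasurable)).aestronglyMeasurable
  · refine lt_of_le_of_lt ?_ (lt_top_iff_ne_top.2 h3)
    exact lintegral_mono fun x => enorm_tsum_le_tsum_enorm

/-- square summability of the fibre -/
theorem ae_summable (η : L2ZZ) : ∀ᵐ x ∂mu, Summable fun m => ‖Phi η m x‖ ^ 2 := by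
  have h := (integrable_tsum_of (fun m => integrable_norm_sq_Phi η m) (by
    refine (summable_row_sq η).congr ?_
    intro m
    rw [← integral_norm_sq_Phi]
    refine integral_congr_ae (Eventually.of_forall fun x => ?_)
    simp)).1
  filter_upwards [h] with x hx
  simpa using hx

/-- fibrewise inner product -/
noncomputable def ip (η ζ : L2ZZ) (x : UnitAddCircle) : ℂ := ∑' m, conj (Phi η m x) * Phi ζ m x

theorem ip_aux (η ζ : L2ZZ) : Summable fun m => ∫ x, ‖conj (Phi η m x) * Phi ζ m x‖ ∂mu := by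
  refine Summable.of_nonneg_of_le (fun m => integral_nonneg fun x => norm_nonneg _) ?_
    ((summable_row_sq η).add (summable_row_sq ζ))
  intro m
  rw [← integral_norm_sq_Phi, ← integral_norm_sq_Phi,
    ← integral_add (integrable_norm_sq_Phi η m) (integrable_norm_sq_Phi ζ m)]
  refine integral_mono (integrable_conj_mul_Phi η ζ m).norm
    ((integrable_norm_sq_Phi η m).add (integrable_norm_sq_Phi ζ m)) ?_
  intro x
  simp only [norm_mul, RCLike.norm_conj]
  nlinarith [sq_nonneg (‖Phi η m x‖ - ‖Phi ζ m x‖), sq_nonneg (‖Phi η m x‖ + ‖Phi ζ m x‖)]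

theorem integrable_ip (η ζ : L2ZZ) : Integrable (ip η ζ) mu :=
  (integrable_tsum_of (fun m => integrable_conj_mul_Phi η ζ m) (ip_aux η ζ)).2.1

theorem ae_summable_ip (η ζ : L2ZZ) :
    ∀ᵐ x ∂mu, Summable fun m => ‖conj (Phi η m x) * Phi ζ m x‖ :=
  (integrable_tsum_of (fun m => integrable_conj_mul_Phi η ζ m) (ip_aux η ζ)).1

theorem integral_ip (η ζ : L2ZZ) : ∫ x, ip η ζ x ∂mu = ⟪η, ζ⟫_ℂ := by
  have h := (integrable_tsum_of (fun m => integrable_conj_mul_Phi η ζ m) (ip_aux η ζ)).2.2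
  simp only [ip]
  rw [h, ← tsum_row_inner]
  exact tsum_congr fun m => integral_conj_mul_Phi η ζ m

theorem fourierCoeff_ip (η η' ζ : L2ZZ) (b : ℤ) (h : ∀ m n, η' (m, n) = η (m, n - b)) :
    fourierCoeff (ip η ζ) b = ⟪η', ζ⟫_ℂ := by
  rw [← integral_ip, fourierCoeff]
  refine integral_congr_ae ?_
  have h1 : ∀ᵐ x ∂mu, ∀ m, fourier b x * Phi η m x = Phi η' m x :=
    ae_all_iff.2 fun m => Phi_shift η η' b h m
  filter_upwards [h1] with x hx
  simp only [ip, smul_eq_mul]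
  rw [← tsum_mul_left]
  refine tsum_congr fun m => ?_
  rw [← hx m, fourier_neg, map_mul]
  ring

/-- Equality of fibre inner products from equality of all shifted inner products. -/
theorem ip_congr (η ζ η₁ ζ₁ : L2ZZ)
    (H : ∀ (b : ℤ) (η' η₁' : L2ZZ), (∀ m n, η' (m, n) = η (m, n - b)) →
      (∀ m n, η₁' (m, n) = η₁ (m, n - b)) → ⟪η', ζ⟫_ℂ = ⟪η₁', ζ₁⟫_ℂ)
    (S : ∀ (b : ℤ) (v : L2ZZ), ∃ v' : L2ZZ, ∀ m n, v' (m, n) = v (m, n - b)) :
    ip η ζ =ᵐ[mu] ip η₁ ζ₁ := by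
  refine ae_eq_of_fourierCoeff _ _ (integrable_ip _ _) (integrable_ip _ _) ?_
  intro b
  obtain ⟨η', hη'⟩ := S b η
  obtain ⟨η₁', hη₁'⟩ := S b η₁
  rw [fourierCoeff_ip η η' ζ b hη', fourierCoeff_ip η₁ η₁' ζ₁ b hη₁']
  exact H b η' η₁' hη' hη₁'

end Crest.Agent.R113.Fib
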