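import Mathlib
import Crest.Prelude.Def_RotationRep
import Crest.Agent.R113.Fib.Fibre

/-!
Weighted permutation operators on `ℓ²(ℤ × ℤ)`, the commutant of the rotation pair
(row 113, S0149, task T15).
-/

set_option autoImplicit false
open MeasureTheory Complex Filter AddCircle
open scoped ENNReal ComplexConjugate InnerProductSpace Topology
open Crest.AnalysisR.RotationRep

namespace Crest.Agent.R113.Fib

/-- Basis vectors. -/
noncomputable abbrev dz {ι : Type*} [DecidableEq ι] (i : ι) : lp (fun _ : ι => ℂ) 2 := lp.single 2 i (1 : ℂ)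

theorem ext_basis {ι : Type*} [DecidableEq ι] {H : Type*} [NormedAddCommGroup H] [NormedSpace ℂ H]
    (A B : lp (fun _ : ι => ℂ) 2 →L[ℂ] H) (h : ∀ i, A (dz i) = B (dz i)) : A = B := by
  refine lp.ext_continuousLinearMap (by norm_num) ?_
  intro i
  ext
  simpa using h i

/-- weighted permutation operator -/
noncomputable def Wop {ι : Type*} (σ : ι ≃ ι) (c : ι → ℂ) (hc : ∀ i, ‖c i‖ = 1) :
    lp (fun _ : ι => ℂ) 2 →L[ℂ] lp (fun _ : ι => ℂ) 2 :=
  LinearMap.mkContinuous
    { toFun := fun v => ⟨fun i => c i * v (σ i), memlp_of_summable_sq _ (by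
        have := (summable_sq v).comp_injective σ.injective
        refine this.congr ?_
        intro i
        simp [hc])⟩
      map_add' := by
        intro v w
        ext i
        simp only [lp.coeFn_add, Pi.add_apply, mul_add]
      map_smul' := by
        intro r v
        ext i
        simp [mul_left_comm] } 1 (by
    intro v
    rw [one_mul]
    refine le_of_sq_le_sq ?_ (norm_nonneg _)
    rw [norm_sq_eq_tsum, norm_sq_eq_tsum, ← Equiv.tsum_eq σ (fun i => ‖v i‖ ^ 2)]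
    refine le_of_eq (tsum_congr fun i => ?_)
    simp [hc])

@[simp] theorem Wop_apply {ι : Type*} (σ : ι ≃ ι) (c : ι → ℂ) (hc : ∀ i, ‖c i‖ = 1)
    (v : lp (fun _ : ι => ℂ) 2) (i : ι) : Wop σ c hc v i = c i * v (σ i) := rfl

theorem Wop_single {ι : Type*} [DecidableEq ι] (σ : ι ≃ ι) (c : ι → ℂ) (hc : ∀ i, ‖c i‖ = 1) (j : ι) :
    Wop σ c hc (dz j) = c (σ.symm j) • dz (σ.symm j) := by
  ext i
  rw [Wop_apply]
  by_cases h : i = σ.symm j
  · subst h
    simp
  · have h2 : σ i ≠ j := fun e => h (by rw [← e, Equiv.symm_apply_apply])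
    simp [lp.single_apply, h, h2]

theorem star_Wop {ι : Type*} (σ : ι ≃ ι) (c : ι → ℂ) (hc : ∀ i, ‖c i‖ = 1) :
    star (Wop σ c hc) = Wop σ.symm (fun j => conj (c (σ.symm j))) (by intro i; simp [hc]) := by
  symm
  rw [ContinuousLinearMap.star_eq_adjoint, ContinuousLinearMap.eq_adjoint_iff]
  intro x y
  rw [lp.inner_eq_tsum, lp.inner_eq_tsum, ← Equiv.tsum_eq σ]
  refine tsum_congr fun i => ?_
  simp only [Wop_apply, Equiv.symm_apply_apply, RCLike.inner_apply, map_mul, RingHomCompTriple.comp_apply,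
    RingHom.id_apply]
  ring

/-- `e(t) = exp(2πit)` -/
noncomputable def ee (t : ℝ) : ℂ := fourier 1 (t : UnitAddCircle)

theorem norm_ee (t : ℝ) : ‖ee t‖ = 1 := by
  rw [ee, fourier_one]; exact Circle.norm_coe _

theorem ee_add (s t : ℝ) : ee (s + t) = ee s * ee t := by
  simp only [ee, fourier_one]
  rw [AddCircle.coe_add, AddCircle.toCircle_add]
  rfl

theorem ee_eq (t : ℝ) : ee t = Complex.exp (2 * Real.pi * Complex.I * t) := by
  rw [ee, fourier_coe_apply]
  congr 1
  push_cast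
  ring

theorem ee_zero : ee 0 = 1 := by rw [ee_eq]; simp

theorem conj_ee (t : ℝ) : conj (ee t) = ee (-t) := by
  rw [ee, ee, ← fourier_neg, fourier_coe_apply, fourier_coe_apply]
  congr 1
  push_cast
  ring

theorem fourier_real (k : ℤ) (t : ℝ) : (fourier k (t : UnitAddCircle) : ℂ) = ee (k * t) := by
  rw [ee_eq, fourier_coe_apply]
  congr 1
  push_cast
  ring

/-- shift `(m,n) ↦ (m, n - b)` -/
def sg2 (b : ℤ) : ℤ × ℤ ≃ ℤ × ℤ where
  toFun i := (i.1, i.2 - b)
  invFun i := (i.1, i.2 + b)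
  left_inv i := by simp
  right_inv i := by simp

/-- shift `(m,n) ↦ (m - a, n)` -/
def sg1 (a : ℤ) : ℤ × ℤ ≃ ℤ × ℤ where
  toFun i := (i.1 - a, i.2)
  invFun i := (i.1 + a, i.2)
  left_inv i := by simp
  right_inv i := by simp

@[simp] theorem sg1_apply (a m n : ℤ) : sg1 a (m, n) = (m - a, n) := rfl
@[simp] theorem sg2_apply (b m n : ℤ) : sg2 b (m, n) = (m, n - b) := rfl
@[simp] theorem sg1_symm_apply (a m n : ℤ) : (sg1 a).symm (m, n) = (m + a, n) := rfl
@[simp] theorem sg2_symm_apply (b m n : ℤ) : (sg2 b).symm (m, n) = (m, n + b) := rfl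

/-- `(Sh b v)(m,n) = v(m,n-b)` (commutes with the rotation pair) -/
noncomputable def Sh (b : ℤ) : L2ZZ →L[ℂ] L2ZZ := Wop (sg2 b) (fun _ => 1) (by simp)

/-- `(Tw v)(m,n) = e(nθ) v(m-1,n)` (commutes with the rotation pair) -/
noncomputable def Tw (θ : ℝ) : L2ZZ →L[ℂ] L2ZZ :=
  Wop (sg1 1) (fun i => ee (i.2 * θ)) (fun _ => norm_ee _)

@[simp] theorem Sh_apply (b m n : ℤ) (v : L2ZZ) : Sh b v (m, n) = v (m, n - b) := by
  rw [Sh, Wop_apply, sg2_apply, one_mul]

@[simp] theorem Tw_apply (θ : ℝ) (m n : ℤ) (v : L2ZZ) : Tw θ v (m, n) = ee (n * θ) * v (m - 1, n) := by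
  rw [Tw, Wop_apply, sg1_apply]

theorem star_Sh_apply (b m n : ℤ) (v : L2ZZ) : star (Sh b) v (m, n) = v (m, n + b) := by
  rw [Sh, star_Wop, Wop_apply, sg2_symm_apply]
  simp

theorem star_Tw_apply (θ : ℝ) (m n : ℤ) (v : L2ZZ) :
    star (Tw θ) v (m, n) = ee (-(n * θ)) * v (m + 1, n) := by
  rw [Tw, star_Wop, Wop_apply, sg1_symm_apply, conj_ee]

section pair
variable {θ : ℝ} {U V : L2ZZ →L[ℂ] L2ZZ} (hUV : IsRotationPair θ U V)
include hUV

theorem U_eq : U = Wop (sg1 1) (fun _ => 1) (by simp) := by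
  refine ext_basis _ _ ?_
  rintro ⟨a, b⟩
  rw [Wop_single, sg1_symm_apply, one_smul]
  exact hUV.1 a b

theorem V_eq : V = Wop (sg2 1) (fun i => ee (θ * i.1)) (fun _ => norm_ee _) := by
  refine ext_basis _ _ ?_
  rintro ⟨a, b⟩
  rw [Wop_single, sg2_symm_apply]
  have := hUV.2 a b
  rw [ee_eq]
  simp only [dz] at *
  rw [this]
  congr 2
  push_cast
  ring

theorem U_apply (v : L2ZZ) (m n : ℤ) : U v (m, n) = v (m - 1, n) := by
  rw [U_eq hUV, Wop_apply, sg1_apply, one_mul]

theorem V_apply (v : L2ZZ) (m n : ℤ) : V v (m, n) = ee (θ * m) * v (m, n - 1) := by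
  rw [V_eq hUV, Wop_apply, sg2_apply]

theorem star_V_apply (v : L2ZZ) (m n : ℤ) : star V v (m, n) = ee (-(θ * m)) * v (m, n + 1) := by
  rw [V_eq hUV, star_Wop, Wop_apply, sg2_symm_apply, conj_ee]

theorem star_U_apply (v : L2ZZ) (m n : ℤ) : star U v (m, n) = v (m + 1, n) := by
  rw [U_eq hUV, star_Wop, Wop_apply, sg1_symm_apply]
  simp

theorem Sh_mem (b : ℤ) : Sh b ∈ Set.centralizer (({U, V} : Set (L2ZZ →L[ℂ] L2ZZ)) ∪ star '' {U, V}) := by
  rw [Set.mem_centralizer_iff]
  rintro m (hm | ⟨m', hm', rfl⟩)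
  · rcases hm with rfl | hm
    · ext v ⟨i, j⟩
      simp only [mul_apply_eq_comp, U_apply hUV, Sh_apply]
    · rw [Set.mem_singleton_iff] at hm
      subst hm
      ext v ⟨i, j⟩
      simp only [mul_apply_eq_comp, V_apply hUV, Sh_apply]
      congr 3
      ring_nf
  · rcases hm' with rfl | hm
    · ext v ⟨i, j⟩
      simp only [mul_apply_eq_comp, star_U_apply hUV, Sh_apply]
    · rw [Set.mem_singleton_iff] at hm
      subst hm
      ext v ⟨i, j⟩
      simp only [mul_apply_eq_comp, star_V_apply hUV, Sh_apply]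
      congr 3
      ring_nf

theorem Tw_mem : Tw θ ∈ Set.centralizer (({U, V} : Set (L2ZZ →L[ℂ] L2ZZ)) ∪ star '' {U, V}) := by
  rw [Set.mem_centralizer_iff]
  rintro m (hm | ⟨m', hm', rfl⟩)
  · rcases hm with rfl | hm
    · ext v ⟨i, j⟩
      simp only [mul_apply_eq_comp, U_apply hUV, Tw_apply]
    · rw [Set.mem_singleton_iff] at hm
      subst hm
      ext v ⟨i, j⟩
      simp only [mul_apply_eq_comp, V_apply hUV, Tw_apply]
      rw [← mul_assoc, ← mul_assoc, ← ee_add, ← ee_add]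
      congr 2
      push_cast
      ring
  · rcases hm' with rfl | hm
    · ext v ⟨i, j⟩
      simp only [mul_apply_eq_comp, star_U_apply hUV, Tw_apply]
      congr 3
      ring_nf
    · rw [Set.mem_singleton_iff] at hm
      subst hm
      ext v ⟨i, j⟩
      simp only [mul_apply_eq_comp, star_V_apply hUV, Tw_apply]
      rw [← mul_assoc, ← mul_assoc, ← ee_add, ← ee_add]
      congr 2
      push_cast
      ring

variable {p : L2ZZ →L[ℂ] L2ZZ} (hp : p ∈ vonNeumannGenerated {U, V})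
include hp

theorem p_Sh (b : ℤ) (v : L2ZZ) : p (Sh b v) = Sh b (p v) := by
  have h := Set.mem_centralizer_iff.1 hp (Sh b) (Sh_mem hUV b)
  have := congrArg (fun A => A v) h
  simpa using this.symm

theorem p_Tw (v : L2ZZ) : p (Tw θ v) = Tw θ (p v) := by
  have h := Set.mem_centralizer_iff.1 hp (Tw θ) (Tw_mem hUV)
  have := congrArg (fun A => A v) h
  simpa using this.symm

end pair

end Crest.Agent.R113.Fib
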