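import Mathlib
import Crest.Prelude.Def_RotationRep
import Crest.Agent.R113.Fib.Ops
import Crest.Agent.R113.FibCfc

/-!
The field of projections (row 113, S0149, task T15): pointwise identities, almost everywhere.
-/

set_option autoImplicit false
open MeasureTheory Complex Filter AddCircle
open scoped ENNReal ComplexConjugate InnerProductSpace Topology
open Crest.AnalysisR.RotationRep

namespace Crest.Agent.R113.Fib

/-! ### pairing with basis vectors -/

theorem row_dz_self (a : ℤ) : row (dz ((a, 0) : ℤ × ℤ)) a = lp.single 2 0 (1 : ℂ) := by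
  ext n
  rw [row_apply]
  by_cases h : n = 0
  · subst h; simp
  · have : ((a, n) : ℤ × ℤ) ≠ (a, 0) := by simpa using h
    rw [dz, lp.single_apply_ne _ _ _ this, lp.single_apply_ne _ _ _ h]

theorem row_dz_ne (a m : ℤ) (hm : m ≠ a) : row (dz ((a, 0) : ℤ × ℤ)) m = 0 := by
  ext n
  rw [row_apply]
  have : ((m, n) : ℤ × ℤ) ≠ (a, 0) := by simp [hm]
  rw [dz, lp.single_apply_ne _ _ _ this]
  rfl

theorem Phi_dz_self (a : ℤ) : Phi (dz ((a, 0) : ℤ × ℤ)) a =ᵐ[mu] fun _ => 1 := by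
  rw [Phi, row_dz_self, HilbertBasis.repr_symm_single, coe_fourierBasis]
  filter_upwards [coeFn_fourierLp (T := (1 : ℝ)) 2 0] with x hx
  rw [hx, fourier_zero]

theorem Phi_dz_ne (a m : ℤ) (hm : m ≠ a) : Phi (dz ((a, 0) : ℤ × ℤ)) m =ᵐ[mu] fun _ => 0 := by
  rw [Phi, row_dz_ne a m hm, map_zero]
  exact Lp.coeFn_zero _ _ _

theorem ae_Phi_dz (a : ℤ) : ∀ᵐ x ∂mu, ∀ m, Phi (dz ((a, 0) : ℤ × ℤ)) m x = if m = a then 1 else 0 := by
  rw [ae_all_iff]
  intro m
  by_cases h : m = a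
  · subst h
    filter_upwards [Phi_dz_self m] with x hx
    simpa using hx
  · filter_upwards [Phi_dz_ne a m h] with x hx
    simpa [h] using hx

theorem ip_dz_left (a : ℤ) (ζ : L2ZZ) : ip (dz ((a, 0) : ℤ × ℤ)) ζ =ᵐ[mu] Phi ζ a := by
  filter_upwards [ae_Phi_dz a] with x hx
  simp only [ip, hx]
  rw [tsum_eq_single a]
  · simp
  · intro m hm
    simp [hm]

theorem ip_dz_right (a : ℤ) (ζ : L2ZZ) : ip ζ (dz ((a, 0) : ℤ × ℤ)) =ᵐ[mu] fun x => conj (Phi ζ a x) := by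
  filter_upwards [ae_Phi_dz a] with x hx
  simp only [ip, hx]
  rw [tsum_eq_single a]
  · simp
  · intro m hm
    simp [hm]

/-! ### translation -/

theorem integrable_translate (g : UnitAddCircle → ℂ) (hg : Integrable g mu) (t : UnitAddCircle) :
    Integrable (fun x => g (x + t)) mu :=
  hg.comp_add_right t

theorem fourierCoeff_translate (g : UnitAddCircle → ℂ) (t : UnitAddCircle) (n : ℤ) :
    fourierCoeff (fun x => g (x + t)) n = fourier n t * fourierCoeff g n := by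
  simp only [fourierCoeff, smul_eq_mul]
  rw [← integral_const_mul, ← integral_add_right_eq_self (fun x => fourier n t * (fourier (-n) x * g x)) t]
  refine integral_congr_ae (Eventually.of_forall fun x => ?_)
  simp only
  rw [← mul_assoc]
  congr 1
  have h : (fourier (-n) (x + t) : ℂ) = fourier (-n) x * fourier (-n) t := by
    simp only [fourier_apply, smul_add, AddCircle.toCircle_add]
    rfl
  have h2 : (fourier n t : ℂ) * fourier (-n) t = 1 := by
    rw [← fourier_add]; simp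
  rw [h, mul_comm (fourier (-n) x : ℂ), ← mul_assoc, h2, one_mul]

section main
variable {θ : ℝ} {U V : L2ZZ →L[ℂ] L2ZZ} (hUV : IsRotationPair θ U V)
  {p : L2ZZ →L[ℂ] L2ZZ} (hp : p ∈ vonNeumannGenerated {U, V}) (hpr : IsStarProjection p)

include hUV hp hpr

theorem ip_p (v ζ : L2ZZ) : ip (p v) ζ =ᵐ[mu] ip v (p ζ) := by
  refine ip_congr _ _ _ _ ?_ ?_
  · intro b η' η₁' h1 h2
    have e1 : η' = Sh b (p v) := by
      ext ⟨m, n⟩
      rw [h1, Sh_apply]
    have e2 : η₁' = Sh b v := by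
      ext ⟨m, n⟩
      rw [h2, Sh_apply]
    rw [e1, e2, ← p_Sh hUV hp]
    have hsa : ContinuousLinearMap.adjoint p = p := by
      rw [← ContinuousLinearMap.star_eq_adjoint]; exact hpr.isSelfAdjoint
    rw [← ContinuousLinearMap.adjoint_inner_left, hsa]
  · intro b v
    exact ⟨Sh b v, fun m n => Sh_apply b m n v⟩

omit hUV hp in
theorem p_p (v : L2ZZ) : p (p v) = p v := by
  have := congrArg (fun A => A v) hpr.isIdempotentElem.eq
  simpa using this

theorem ip_xi (a a' : ℤ) :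
    ip (p (dz ((a, 0) : ℤ × ℤ))) (p (dz ((a', 0) : ℤ × ℤ))) =ᵐ[mu] Phi (p (dz ((a', 0) : ℤ × ℤ))) a := by
  refine (ip_p hUV hp hpr _ _).trans ?_
  rw [p_p hpr]
  exact ip_dz_left _ _

theorem ip_xi' (a a' : ℤ) :
    ip (p (dz ((a, 0) : ℤ × ℤ))) (p (dz ((a', 0) : ℤ × ℤ))) =ᵐ[mu]
      fun x => conj (Phi (p (dz ((a, 0) : ℤ × ℤ))) a' x) := by
  refine (ip_p hUV hp hpr (p (dz ((a, 0) : ℤ × ℤ))) (dz ((a', 0) : ℤ × ℤ))).symm.trans ?_
  rw [p_p hpr]
  exact ip_dz_right _ _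

omit hpr in
theorem xi_shift (a m n : ℤ) :
    p (dz ((a + 1, 0) : ℤ × ℤ)) (m + 1, n) = ee (n * θ) * p (dz ((a, 0) : ℤ × ℤ)) (m, n) := by
  have h1 : Tw θ (dz ((a, 0) : ℤ × ℤ)) = dz ((a + 1, 0) : ℤ × ℤ) := by
    rw [Tw, Wop_single, sg1_symm_apply]
    simp [ee_zero]
  rw [← h1, p_Tw hUV hp, Tw_apply]
  simp

omit hpr in
theorem Phi_xi_cov (a m : ℤ) :
    (fun x => Phi (p (dz ((a, 0) : ℤ × ℤ))) m (x + ((θ : ℝ) : UnitAddCircle))) =ᵐ[mu]
      Phi (p (dz ((a + 1, 0) : ℤ × ℤ))) (m + 1) := by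
  refine ae_eq_Phi _ _ _ (integrable_translate _ (integrable_Phi _ _) _) ?_
  intro n
  rw [fourierCoeff_translate, fourierCoeff_Phi, fourier_real, xi_shift hUV hp]

omit hp hpr in
theorem Phi_U (ζ : L2ZZ) (m : ℤ) : Phi (U ζ) m = Phi ζ (m - 1) := by
  rw [Phi, Phi]
  congr 1
  ext n
  rw [row_apply, row_apply, U_apply hUV]

omit hp hpr in
theorem Phi_T (f : ℂ → ℝ) (hf : Continuous f) (v : L2ZZ) (m : ℤ) :
    Phi ((U * cfc (fun z : ℂ => (f z : ℂ)) V) v) m =ᵐ[mu]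
      fun x => (f (fourier 1 (x + (((m - 1 : ℤ) * θ : ℝ) : UnitAddCircle))) : ℂ) * Phi v (m - 1) x := by
  rw [mul_apply_eq_comp, Phi_U hUV]
  exact FibCfc.F_cfc hUV (fun z : ℂ => (f z : ℂ)) (Complex.continuous_ofReal.comp hf) v (m - 1)

theorem ip_inv (T : L2ZZ →L[ℂ] L2ZZ) (hT : (1 - p) * T * p = 0) (v w : L2ZZ) :
    ip (p v) (T (p w)) =ᵐ[mu] ip v (T (p w)) := by
  have h1 : p (T (p w)) = T (p w) := by
    have := congrArg (fun A => A w) hT
    simp only [mul_apply_eq_comp, sub_apply, one_apply_eq_self,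
      zero_apply] at this
    exact (sub_eq_zero.1 this).symm
  have := ip_p hUV hp hpr v (T (p w))
  rwa [h1] at this

end main

end Crest.Agent.R113.Fib
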