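import Mathlib
import Crest.Prelude.Def_RotationRep
import Crest.Agent.R113.Fib.Field
import Crest.Agent.R113.TransferDefs

/-!
The fibre theorem (row 113, S0149, task T15).
-/

set_option autoImplicit false
open MeasureTheory Complex Filter AddCircle
open scoped ENNReal ComplexConjugate InnerProductSpace Topology
open Crest.AnalysisR.RotationRep

namespace Crest.Agent.R113.Fib

/-- Orthogonal projection onto the closed span of a sequence of vectors. -/
noncomputable def PK (s : ℤ → L2Z) : L2Z →L[ℂ] L2Z :=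
  haveI : CompleteSpace (Submodule.span ℂ (Set.range s)).topologicalClosure :=
    (Submodule.isClosed_topologicalClosure _).completeSpace_coe
  (Submodule.span ℂ (Set.range s)).topologicalClosure.starProjection

theorem PK_proj (s : ℤ → L2Z) : IsStarProjection (PK s) := by
  have : CompleteSpace (Submodule.span ℂ (Set.range s)).topologicalClosure :=
    (Submodule.isClosed_topologicalClosure _).completeSpace_coe
  exact isStarProjection_starProjection

theorem inner_dz_left (a : ℤ) (v : L2Z) : ⟪dz a, v⟫_ℂ = v a := by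
  rw [dz, lp.inner_single_left]; simp

theorem inner_dz_right (a : ℤ) (v : L2Z) : ⟪v, dz a⟫_ℂ = conj (v a) := by
  rw [← inner_conj_symm, inner_dz_left]

theorem PK_dz (s : ℤ → L2Z) (h1 : ∀ a a', ⟪s a, s a'⟫_ℂ = s a' a)
    (h2 : ∀ a a', ⟪s a, s a'⟫_ℂ = conj (s a a')) (a : ℤ) : PK s (dz a) = s a := by
  have : CompleteSpace (Submodule.span ℂ (Set.range s)).topologicalClosure :=
    (Submodule.isClosed_topologicalClosure _).completeSpace_coe
  refine Submodule.eq_starProjection_of_mem_orthogonal ?_ ?_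
  · exact Submodule.le_topologicalClosure _ (Submodule.subset_span ⟨a, rfl⟩)
  · rw [Submodule.orthogonal_closure, Submodule.mem_orthogonal]
    intro u hu
    induction hu using Submodule.span_induction with
    | mem x hx =>
      obtain ⟨b, rfl⟩ := hx
      rw [inner_sub_right, inner_dz_right, h2, sub_self]
    | zero => simp
    | add x y _ _ hx hy => rw [inner_add_left, hx, hy, add_zero]
    | smul c x _ hx => rw [inner_smul_left, hx, mul_zero]

theorem PK_fix (s : ℤ → L2Z) (h1 : ∀ a a', ⟪s a, s a'⟫_ℂ = s a' a)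
    (h2 : ∀ a a', ⟪s a, s a'⟫_ℂ = conj (s a a')) (w : L2Z) (hw : ∀ c, ⟪s c, w⟫_ℂ = w c) :
    PK s w = w := by
  have hsa : ContinuousLinearMap.adjoint (PK s) = PK s := by
    rw [← ContinuousLinearMap.star_eq_adjoint]; exact (PK_proj s).isSelfAdjoint
  ext c
  rw [← inner_dz_left, ← inner_dz_left c w, ← ContinuousLinearMap.adjoint_inner_left, hsa,
    PK_dz s h1 h2, hw, inner_dz_left]

/-- the fibre vector -/
noncomputable def fv (η : L2ZZ) (x : UnitAddCircle) : L2Z := by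
  classical
  exact if h : Summable (fun m => ‖Phi η m x‖ ^ 2) then ⟨fun m => Phi η m x, memlp_of_summable_sq _ h⟩ else 0

theorem fv_apply (η : L2ZZ) (x : UnitAddCircle) (h : Summable (fun m => ‖Phi η m x‖ ^ 2)) (m : ℤ) :
    fv η x m = Phi η m x := by
  rw [fv, dif_pos h]

theorem inner_fv (η ζ : L2ZZ) (x : UnitAddCircle) (h : Summable (fun m => ‖Phi η m x‖ ^ 2))
    (h' : Summable (fun m => ‖Phi ζ m x‖ ^ 2)) : ⟪fv η x, fv ζ x⟫_ℂ = ip η ζ x := by
  rw [lp.inner_eq_tsum, ip]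
  refine tsum_congr fun m => ?_
  rw [fv_apply η x h, fv_apply ζ x h', RCLike.inner_apply, mul_comm]

/-- the good set -/
def G (θ : ℝ) (p T : L2ZZ →L[ℂ] L2ZZ) (f : ℂ → ℝ) (x : UnitAddCircle) : Prop :=
  (∀ a : ℤ, Summable (fun m => ‖Phi (p (dz ((a, 0) : ℤ × ℤ))) m x‖ ^ 2)) ∧
  (∀ a : ℤ, Summable (fun m => ‖Phi (T (p (dz ((a, 0) : ℤ × ℤ)))) m x‖ ^ 2)) ∧
  (∀ a a' : ℤ, ip (p (dz ((a, 0) : ℤ × ℤ))) (p (dz ((a', 0) : ℤ × ℤ))) x = Phi (p (dz ((a', 0) : ℤ × ℤ))) a x) ∧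
  (∀ a a' : ℤ, ip (p (dz ((a, 0) : ℤ × ℤ))) (p (dz ((a', 0) : ℤ × ℤ))) x =
    conj (Phi (p (dz ((a, 0) : ℤ × ℤ))) a' x)) ∧
  (∀ a m : ℤ, Phi (T (p (dz ((a, 0) : ℤ × ℤ)))) m x =
    (f (fourier 1 (x + (((m - 1 : ℤ) * θ : ℝ) : UnitAddCircle))) : ℂ) * Phi (p (dz ((a, 0) : ℤ × ℤ))) (m - 1) x) ∧
  (∀ c a : ℤ, ip (p (dz ((c, 0) : ℤ × ℤ))) (T (p (dz ((a, 0) : ℤ × ℤ)))) x = Phi (T (p (dz ((a, 0) : ℤ × ℤ)))) c x) ∧
  (∀ a m : ℤ, Phi (p (dz ((a, 0) : ℤ × ℤ))) m (x + ((θ : ℝ) : UnitAddCircle)) =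
    Phi (p (dz ((a + 1, 0) : ℤ × ℤ))) (m + 1) x)

theorem ae_G {θ : ℝ} {U V : L2ZZ →L[ℂ] L2ZZ} (hUV : IsRotationPair θ U V)
    {p : L2ZZ →L[ℂ] L2ZZ} (hp : p ∈ vonNeumannGenerated {U, V}) (hpr : IsStarProjection p)
    (f : ℂ → ℝ) (hf : Continuous f)
    (hinv : (1 - p) * (U * cfc (fun z : ℂ => (f z : ℂ)) V) * p = 0) :
    ∀ᵐ x ∂mu, G θ p (U * cfc (fun z : ℂ => (f z : ℂ)) V) f x := by
  have h1 : ∀ᵐ x ∂mu, ∀ a : ℤ, Summable (fun m => ‖Phi (p (dz ((a, 0) : ℤ × ℤ))) m x‖ ^ 2) :=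
    ae_all_iff.2 fun a => ae_summable _
  have h2 : ∀ᵐ x ∂mu, ∀ a : ℤ, Summable (fun m => ‖Phi ((U * cfc (fun z : ℂ => (f z : ℂ)) V) (p (dz ((a, 0) : ℤ × ℤ)))) m x‖ ^ 2) :=
    ae_all_iff.2 fun a => ae_summable _
  have h3 := ae_all_iff.2 fun a => ae_all_iff.2 fun a' => ip_xi hUV hp hpr a a'
  have h4 := ae_all_iff.2 fun a => ae_all_iff.2 fun a' => ip_xi' hUV hp hpr a a'
  have h5 := ae_all_iff.2 fun a : ℤ => ae_all_iff.2 fun m => Phi_T hUV f hf (p (dz ((a, 0) : ℤ × ℤ))) m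
  have h6 := ae_all_iff.2 fun c : ℤ => ae_all_iff.2 fun a : ℤ =>
    (ip_inv hUV hp hpr _ hinv (dz ((c, 0) : ℤ × ℤ)) (dz ((a, 0) : ℤ × ℤ))).trans (ip_dz_left c _)
  have h7 := ae_all_iff.2 fun a => ae_all_iff.2 fun m => Phi_xi_cov hUV hp a m
  filter_upwards [h1, h2, h3, h4, h5, h6, h7] with x g1 g2 g3 g4 g5 g6 g7
  exact ⟨g1, g2, g3, g4, g5, g6, g7⟩

/-- the invariant null set -/
def NN (θ : ℝ) (B : Set UnitAddCircle) : Set UnitAddCircle :=
  ⋃ k : ℤ, (fun x => x + k • ((θ : ℝ) : UnitAddCircle)) ⁻¹' (toMeasurable mu B)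

theorem measurableSet_NN (θ : ℝ) (B : Set UnitAddCircle) : MeasurableSet (NN θ B) :=
  MeasurableSet.iUnion fun _ => (measurable_add_const _) (measurableSet_toMeasurable _ _)

theorem NN_null (θ : ℝ) (B : Set UnitAddCircle) (hB : mu B = 0) : mu (NN θ B) = 0 := by
  rw [NN, measure_iUnion_null_iff]
  intro k
  rw [measure_preimage_add_right, measure_toMeasurable, hB]

theorem NN_inv (θ : ℝ) (B : Set UnitAddCircle) (x : UnitAddCircle) :
    x + ((θ : ℝ) : UnitAddCircle) ∈ NN θ B ↔ x ∈ NN θ B := by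
  simp only [NN, Set.mem_iUnion, Set.mem_preimage]
  constructor
  · rintro ⟨k, hk⟩
    refine ⟨k + 1, ?_⟩
    rwa [add_smul, one_smul, add_comm (k • _), ← add_assoc]
  · rintro ⟨k, hk⟩
    refine ⟨k - 1, ?_⟩
    rwa [sub_smul, one_smul, add_sub, add_assoc, add_comm ((θ : ℝ) : UnitAddCircle), ← add_assoc,
      add_sub_cancel_right]

theorem not_mem_NN (θ : ℝ) (B : Set UnitAddCircle) (x : UnitAddCircle) (hx : x ∉ NN θ B) : x ∉ B := by
  intro h
  apply hx
  simp only [NN, Set.mem_iUnion, Set.mem_preimage]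
  refine ⟨0, ?_⟩
  rw [zero_smul, add_zero]
  exact subset_toMeasurable _ _ h

theorem volume_eq_mu : (volume : Measure UnitAddCircle) = mu := by
  rw [AddCircle.volume_eq_smul_haarAddCircle]
  simp

theorem exists_fibres (θ : ℝ) (f : ℂ → ℝ) (hf : Continuous f) (U V p : L2ZZ →L[ℂ] L2ZZ)
    (hUV : IsRotationPair θ U V) (hp : p ∈ vonNeumannGenerated {U, V}) (hpr : IsStarProjection p)
    (hinv : (1 - p) * (U * cfc (fun z : ℂ => (f z : ℂ)) V) * p = 0) :
    ∃ P : UnitAddCircle → (L2Z →L[ℂ] L2Z),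
      (∀ x, IsStarProjection (P x)) ∧
      (∀ m m' : ℤ, Measurable fun x => (P x (lp.single 2 m' (1 : ℂ)) : ℤ → ℂ) m) ∧
      (∀ x (m m' : ℤ), (P (x + ((θ : ℝ) : UnitAddCircle)) (lp.single 2 m' (1 : ℂ)) : ℤ → ℂ) m =
        (P x (lp.single 2 (m' + 1) (1 : ℂ)) : ℤ → ℂ) (m + 1)) ∧
      (∀ x (T : L2Z →L[ℂ] L2Z), (∀ m : ℤ, T (lp.single 2 m (1 : ℂ)) =
          ((f (fourier 1 (x + ((m * θ : ℝ) : UnitAddCircle))) : ℝ) : ℂ) • lp.single 2 (m + 1) (1 : ℂ)) →
        (1 - P x) * T * P x = 0) ∧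
      (∫ x, ‖P x (lp.single 2 0 (1 : ℂ))‖ ^ 2 = ‖p (lp.single 2 (0, 0) (1 : ℂ))‖ ^ 2) := by
  classical
  set T₀ : L2ZZ →L[ℂ] L2ZZ := U * cfc (fun z : ℂ => (f z : ℂ)) V with hT₀
  set B : Set UnitAddCircle := {x | ¬ G θ p T₀ f x} with hB
  have hB0 : mu B = 0 := ae_G hUV hp hpr f hf hinv
  set N := NN θ B with hN
  have hN0 : mu N = 0 := NN_null θ B hB0
  have hNm : MeasurableSet N := measurableSet_NN θ B
  have hG : ∀ x, x ∉ N → G θ p T₀ f x := by
    intro x hx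
    have := not_mem_NN θ B x hx
    simpa [hB] using this
  let s : UnitAddCircle → ℤ → L2Z := fun x a => fv (p (dz ((a, 0) : ℤ × ℤ))) x
  have hs1 : ∀ x, x ∉ N → ∀ a a', ⟪s x a, s x a'⟫_ℂ = s x a' a := by
    intro x hx a a'
    obtain ⟨g1, g2, g3, g4, g5, g6, g7⟩ := hG x hx
    simp only [s]
    rw [inner_fv _ _ x (g1 a) (g1 a'), g3, fv_apply _ x (g1 a')]
  have hs2 : ∀ x, x ∉ N → ∀ a a', ⟪s x a, s x a'⟫_ℂ = conj (s x a a') := by
    intro x hx a a'
    obtain ⟨g1, g2, g3, g4, g5, g6, g7⟩ := hG x hx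
    simp only [s]
    rw [inner_fv _ _ x (g1 a) (g1 a'), g4, fv_apply _ x (g1 a)]
  let P : UnitAddCircle → (L2Z →L[ℂ] L2Z) := fun x => if x ∈ N then 0 else PK (s x)
  have hPN : ∀ x, x ∈ N → P x = 0 := fun x hx => by simp only [P, if_pos hx]
  have hPn : ∀ x, x ∉ N → P x = PK (s x) := fun x hx => by simp only [P, if_neg hx]
  have hPd : ∀ x, x ∉ N → ∀ a, P x (dz a) = s x a := by
    intro x hx a
    rw [hPn x hx, PK_dz _ (hs1 x hx) (hs2 x hx)]
  have hPc : ∀ x, x ∉ N → ∀ a m, P x (dz a) m = Phi (p (dz ((a, 0) : ℤ × ℤ))) m x := by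
    intro x hx a m
    rw [hPd x hx]
    exact fv_apply _ x ((hG x hx).1 a) m
  refine ⟨P, ?_, ?_, ?_, ?_, ?_⟩
  · intro x
    by_cases hx : x ∈ N
    · rw [hPN x hx]; exact IsStarProjection.zero _
    · rw [hPn x hx]; exact PK_proj _
  · intro m m'
    have : (fun x => (P x (lp.single 2 m' (1 : ℂ)) : ℤ → ℂ) m) =
        fun x => if x ∈ N then 0 else Phi (p (dz ((m', 0) : ℤ × ℤ))) m x := by
      funext x
      by_cases hx : x ∈ N
      · rw [hPN x hx, if_pos hx]; rfl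
      · rw [if_neg hx]; exact hPc x hx m' m
    rw [this]
    exact Measurable.ite hNm measurable_const (Lp.stronglyMeasurable _).measurable
  · intro x m m'
    by_cases hx : x ∈ N
    · have hx' : x + ((θ : ℝ) : UnitAddCircle) ∈ N := (NN_inv θ B x).2 hx
      rw [hPN x hx, hPN _ hx']; rfl
    · have hx' : x + ((θ : ℝ) : UnitAddCircle) ∉ N := fun h => hx ((NN_inv θ B x).1 h)
      have e1 := hPc _ hx' m' m
      have e2 := hPc _ hx (m' + 1) (m + 1)
      obtain ⟨g1, g2, g3, g4, g5, g6, g7⟩ := hG x hx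
      rw [g7] at e1
      exact e1.trans e2.symm
  · intro x T hT
    by_cases hx : x ∈ N
    · rw [hPN x hx]; simp
    · obtain ⟨g1, g2, g3, g4, g5, g6, g7⟩ := hG x hx
      refine ext_basis _ _ ?_
      intro a
      -- coordinates of `T v`
      have hTc : ∀ (v : L2Z) (m : ℤ), T v m =
          ((f (fourier 1 (x + (((m - 1 : ℤ) * θ : ℝ) : UnitAddCircle))) : ℝ) : ℂ) * v (m - 1) := by
        intro v m
        have key : (innerSL ℂ (dz m : L2Z)).comp T =
            ((f (fourier 1 (x + (((m - 1 : ℤ) * θ : ℝ) : UnitAddCircle))) : ℝ) : ℂ) • innerSL ℂ (dz (m - 1) : L2Z) := by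
          refine ext_basis _ _ ?_
          intro i
          simp only [ContinuousLinearMap.comp_apply, innerSL_apply_apply, smul_apply, smul_eq_mul]
          rw [show T (dz i) = _ from hT i, inner_smul_right, inner_dz_left, inner_dz_left]
          by_cases hi : i = m - 1
          · subst hi
            simp
          · have : m ≠ i + 1 := fun e => hi (by rw [e]; ring)
            rw [lp.single_apply_ne _ _ _ this, lp.single_apply_ne _ _ _ (Ne.symm hi)]
            simp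
        have := congrArg (fun A => A v) key
        simp only [ContinuousLinearMap.comp_apply, innerSL_apply_apply, smul_apply, smul_eq_mul,
          inner_dz_left] at this
        exact this
      have hTw : T (s x a) = fv (T₀ (p (dz ((a, 0) : ℤ × ℤ)))) x := by
        ext m
        rw [hTc, fv_apply _ x (g2 a), g5]
        congr 1
        exact fv_apply _ x (g1 a) _
      have hfix : P x (T (s x a)) = T (s x a) := by
        rw [hPn x hx]
        refine PK_fix _ (hs1 x hx) (hs2 x hx) _ ?_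
        intro c
        rw [hTw]
        simp only [s]
        rw [inner_fv _ _ x (g1 c) (g2 a), g6, fv_apply _ x (g2 a)]
      simp only [mul_apply_eq_comp, sub_apply, one_apply_eq_self, zero_apply]
      rw [show P x (dz a) = s x a from hPd x hx a, hfix, sub_self]
  · rw [volume_eq_mu]
    have h1 : (fun x => ‖P x (lp.single 2 0 (1 : ℂ))‖ ^ 2) =ᵐ[mu]
        fun x => (ip (p (dz ((0, 0) : ℤ × ℤ))) (p (dz ((0, 0) : ℤ × ℤ))) x).re := by
      have hN' : ∀ᵐ x ∂mu, x ∉ N := measure_eq_zero_iff_ae_notMem.1 hN0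
      filter_upwards [hN'] with x hx
      have g1 := (hG x hx).1
      rw [show P x (lp.single 2 0 (1 : ℂ)) = s x 0 from hPd x hx 0, ← inner_fv _ _ x (g1 0) (g1 0)]
      rw [inner_self_eq_norm_sq_to_K]
      norm_cast
    rw [integral_congr_ae h1]
    have h2 := integral_ip (p (dz ((0, 0) : ℤ × ℤ))) (p (dz ((0, 0) : ℤ × ℤ)))
    have h3 : ∫ x, (ip (p (dz ((0, 0) : ℤ × ℤ))) (p (dz ((0, 0) : ℤ × ℤ))) x).re ∂mu =
        (∫ x, ip (p (dz ((0, 0) : ℤ × ℤ))) (p (dz ((0, 0) : ℤ × ℤ))) x ∂mu).re :=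
      integral_re (integrable_ip _ _)
    rw [h3, h2, inner_self_eq_norm_sq_to_K]
    norm_cast

end Crest.Agent.R113.Fib
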