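import Mathlib
import Crest.Prelude.Def_RotationRep
import Crest.Agent.R113.Fib.Main

/-!
Reduction of S0149 to the fibre statement (row 113, S0149, tasks T15/T18).
-/

set_option autoImplicit false
open MeasureTheory Complex Filter AddCircle
open scoped ENNReal ComplexConjugate InnerProductSpace Topology
open Crest.AnalysisR.RotationRep

namespace Crest.Agent.R113.Fib

section
variable {θ : ℝ} {U V : L2ZZ →L[ℂ] L2ZZ} (hUV : IsRotationPair θ U V)
  {p : L2ZZ →L[ℂ] L2ZZ} (hp : p ∈ vonNeumannGenerated {U, V})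
include hUV hp

/-- an element of the algebra killing `δ_(0,0)` is zero (the trace vector is separating). -/
theorem eq_zero_of_dz (h : p (dz ((0, 0) : ℤ × ℤ)) = 0) : p = 0 := by
  -- first `δ_(a,0)` for all `a`
  have hTw : ∀ a : ℤ, Tw θ (dz ((a, 0) : ℤ × ℤ)) = dz ((a + 1, 0) : ℤ × ℤ) := by
    intro a
    rw [Tw, Wop_single, sg1_symm_apply]
    simp [ee_zero]
  have hinj : ∀ v : L2ZZ, Tw θ v = 0 → v = 0 := by
    intro v hv
    ext ⟨m, n⟩
    have := congrArg (fun w : L2ZZ => w (m + 1, n)) hv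
    simp only [Tw_apply] at this
    have h2 : ee (n * θ) ≠ 0 := by
      intro h0
      have := norm_ee (n * θ)
      rw [h0, norm_zero] at this
      norm_num at this
    have h3 : ee (n * θ) * v (m + 1 - 1, n) = 0 := this
    rw [add_sub_cancel_right] at h3
    exact (mul_eq_zero.1 h3).resolve_left h2
  have h1 : ∀ a : ℤ, p (dz ((a, 0) : ℤ × ℤ)) = 0 := by
    intro a
    induction a using Int.induction_on with
    | zero => exact h
    | succ i ih => rw [← hTw, p_Tw hUV hp, ih, map_zero]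
    | pred i ih =>
      apply hinj
      rw [← p_Tw hUV hp, hTw, sub_add_cancel, ih]
  refine ext_basis _ _ ?_
  rintro ⟨a, b⟩
  have hSh : Sh b (dz ((a, 0) : ℤ × ℤ)) = dz ((a, b) : ℤ × ℤ) := by
    rw [Sh, Wop_single, sg2_symm_apply]
    simp
  rw [← hSh, p_Sh hUV hp, h1, map_zero]
  rfl

end

theorem one_sub_mem {U V p : L2ZZ →L[ℂ] L2ZZ} (hp : p ∈ vonNeumannGenerated {U, V}) :
    1 - p ∈ vonNeumannGenerated {U, V} := by
  rw [vonNeumannGenerated, Set.mem_centralizer_iff] at *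
  intro m hm
  rw [mul_sub, sub_mul, hp m hm, mul_one, one_mul]

theorem norm_dz {ι : Type*} [DecidableEq ι] (i : ι) : ‖(dz i : lp (fun _ : ι => ℂ) 2)‖ = 1 := by
  rw [dz, lp.norm_single (by norm_num)]
  simp

theorem norm_sq_add {p : L2ZZ →L[ℂ] L2ZZ} (hpr : IsStarProjection p) (v : L2ZZ) :
    ‖p v‖ ^ 2 + ‖(1 - p) v‖ ^ 2 = ‖v‖ ^ 2 := by
  have hsa : ContinuousLinearMap.adjoint p = p := by
    rw [← ContinuousLinearMap.star_eq_adjoint]; exact hpr.isSelfAdjoint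
  have hpp : p (p v) = p v := p_p hpr v
  have h0 : ⟪p v, (1 - p) v⟫_ℂ = 0 := by
    rw [show p v = ContinuousLinearMap.adjoint p v by rw [hsa], ContinuousLinearMap.adjoint_inner_left]
    simp [hpp]
  have h1 : v = p v + (1 - p) v := by simp
  have h2 := norm_add_sq_eq_norm_sq_add_norm_sq_of_inner_eq_zero (p v) ((1 - p) v) h0
  rw [← h1] at h2
  nlinarith [h2]

/-- Reduction of S0149 to fibres. -/
theorem reduction (θ : ℝ) (f : ℂ → ℝ) (hf : Continuous f)
    (H : ∀ P : UnitAddCircle → (L2Z →L[ℂ] L2Z),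
      Transfer.Fibres θ (fun x => f (fourier 1 x)) P → ∀ ρ : ℝ,
      ρ = ∫ x, ‖P x (lp.single 2 (0 : ℤ) (1 : ℂ))‖ ^ 2 → 0 < ρ → ρ < 1 → False) :
    ∀ U V : L2ZZ →L[ℂ] L2ZZ, IsRotationPair θ U V →
      ∀ p : L2ZZ →L[ℂ] L2ZZ, p ∈ vonNeumannGenerated {U, V} → IsStarProjection p →
        (1 - p) * (U * cfc (fun z : ℂ => (f z : ℂ)) V) * p = 0 → p = 0 ∨ p = 1 := by
  intro U V hUV p hp hpr hinv
  obtain ⟨P, h1, h2, h3, h4, h5⟩ := exists_fibres θ f hf U V p hUV hp hpr hinv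
  have hF : Transfer.Fibres θ (fun x => f (fourier 1 x)) P := by
    refine ⟨h1, h2, h3, ?_⟩
    intro x T hT
    refine h4 x T ?_
    intro m
    rw [hT m]
    congr 4
    rw [← zsmul_eq_mul, AddCircle.coe_zsmul]
  have h6 := norm_sq_add hpr (dz ((0, 0) : ℤ × ℤ))
  rw [norm_dz, one_pow] at h6
  by_cases hz : ‖p (dz ((0, 0) : ℤ × ℤ))‖ ^ 2 = 0
  · left
    refine eq_zero_of_dz hUV hp ?_
    simpa using hz
  by_cases ho : ‖p (dz ((0, 0) : ℤ × ℤ))‖ ^ 2 = 1
  · right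
    have h7 : ‖(1 - p) (dz ((0, 0) : ℤ × ℤ))‖ ^ 2 = 0 := by linarith
    have h8 := eq_zero_of_dz hUV (one_sub_mem hp) (by simpa using h7)
    exact (sub_eq_zero.1 h8).symm
  exfalso
  refine H P hF _ rfl ?_ ?_
  · rw [h5]
    exact lt_of_le_of_ne (sq_nonneg _) (Ne.symm hz)
  · rw [h5]
    refine lt_of_le_of_ne ?_ ho
    nlinarith [sq_nonneg ‖(1 - p) (dz ((0, 0) : ℤ × ℤ))‖]

end Crest.Agent.R113.Fib
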