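import Crest.Agent.R113.Fib.Reduce
import Crest.Agent.R113.Glue

/-!
T15 in the form used by `Glue.lean`.
-/

set_option autoImplicit false
open MeasureTheory

namespace Crest.Agent.R113

theorem s_fibres : S_Fibres := by
  intro θ f hf U V p hUV hp hpr hinv
  obtain ⟨P, h1, h2, h3, h4, h5⟩ := Fib.exists_fibres θ f hf U V p hUV hp hpr hinv
  refine ⟨P, ⟨h1, h2, h3, ?_⟩, h5, ?_, ?_⟩
  · intro x T hT
    refine h4 x T ?_
    intro m
    rw [hT m]
    congr 4
    rw [← zsmul_eq_mul, AddCircle.coe_zsmul]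
  · intro hz
    exact Fib.eq_zero_of_dz hUV hp (by simpa using hz)
  · intro ho
    have h6 := Fib.norm_sq_add hpr (Fib.dz ((0, 0) : ℤ × ℤ))
    rw [Fib.norm_dz, one_pow, ho] at h6
    have h7 : ‖(1 - p) (Fib.dz ((0, 0) : ℤ × ℤ))‖ ^ 2 = 0 := by linarith
    have h8 := Fib.eq_zero_of_dz hUV (Fib.one_sub_mem hp) (by simpa using h7)
    exact (sub_eq_zero.1 h8).symm

end Crest.Agent.R113
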